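import Mathlib

open MeasureTheory Set Submodule

namespace Vale.Agent.P204aux

/-- the real matrix attached to an integer matrix of determinant one -/
def mat (A : Matrix.SpecialLinearGroup (Fin 3) ℤ) : Matrix (Fin 3) (Fin 3) ℝ :=
  (A : Matrix (Fin 3) (Fin 3) ℤ).map (Int.cast : ℤ → ℝ)

theorem det_mat (A : Matrix.SpecialLinearGroup (Fin 3) ℤ) : (mat A).det = 1 := by
  have h : mat A = (Int.castRingHom ℝ).mapMatrix (A : Matrix (Fin 3) (Fin 3) ℤ) := rfl
  rw [h, ← RingHom.map_det, A.det_coe, map_one]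

theorem mat_mul_inv (A : Matrix.SpecialLinearGroup (Fin 3) ℤ) : mat A * mat A⁻¹ = 1 := by
  have h : ∀ B : Matrix.SpecialLinearGroup (Fin 3) ℤ,
    mat B = (Int.castRingHom ℝ).mapMatrix (B : Matrix (Fin 3) (Fin 3) ℤ) := fun _ => rfl
  rw [h, h, ← map_mul, ← Matrix.SpecialLinearGroup.coe_mul, mul_inv_cancel,
    Matrix.SpecialLinearGroup.coe_one, map_one]

theorem mat_inv_mul (A : Matrix.SpecialLinearGroup (Fin 3) ℤ) : mat A⁻¹ * mat A = 1 := by
  simpa using mat_mul_inv A⁻¹

theorem mat_mulVec_int (A : Matrix.SpecialLinearGroup (Fin 3) ℤ) (n : Fin 3 → ℤ) :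
    (mat A).mulVec (fun i => (n i : ℝ)) =
      fun i => (((A : Matrix (Fin 3) (Fin 3) ℤ).mulVec n i : ℤ) : ℝ) := by
  ext i
  simp [mat, Matrix.mulVec, dotProduct]

/-- the standard lattice -/
abbrev Lat : AddSubgroup (Fin 3 → ℝ) := (span ℤ (range (Pi.basisFun ℝ (Fin 3)))).toAddSubgroup

/-- the unit cube -/
abbrev cube : Set (Fin 3 → ℝ) := ZSpan.fundamentalDomain (Pi.basisFun ℝ (Fin 3))

theorem mem_Lat (x : Fin 3 → ℝ) : x ∈ Lat ↔ ∃ n : Fin 3 → ℤ, x = fun i => (n i : ℝ) := by
  rw [Lat, Submodule.mem_toAddSubgroup, Module.Basis.mem_span_iff_repr_mem]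
  constructor
  · intro h
    choose n hn using h
    refine ⟨n, ?_⟩
    ext i
    have := hn i
    simpa using this.symm
  · rintro ⟨n, rfl⟩ i
    exact ⟨n i, by simp⟩

theorem mat_mem_Lat (A : Matrix.SpecialLinearGroup (Fin 3) ℤ) {x : Fin 3 → ℝ} (hx : x ∈ Lat) :
    (mat A).mulVec x ∈ Lat := by
  obtain ⟨n, rfl⟩ := (mem_Lat x).1 hx
  rw [mem_Lat]
  exact ⟨_, mat_mulVec_int A n⟩

instance : Countable Lat := by
  let f : (Fin 3 → ℤ) → Lat := fun n => ⟨fun i => (n i : ℝ), (mem_Lat _).2 ⟨n, rfl⟩⟩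
  apply Function.Surjective.countable (f := f)
  rintro ⟨x, hx⟩
  obtain ⟨n, hn⟩ := (mem_Lat x).1 hx
  exact ⟨n, Subtype.ext hn.symm⟩

/-- the affine equivalence `x ↦ A x + c` -/
noncomputable def affEquiv (A : Matrix.SpecialLinearGroup (Fin 3) ℤ) (c : Fin 3 → ℝ) :
    (Fin 3 → ℝ) ≃ᵐ (Fin 3 → ℝ) where
  toFun x := (mat A).mulVec x + c
  invFun x := (mat A⁻¹).mulVec (x - c)
  left_inv x := by simp [Matrix.mulVec_mulVec, mat_inv_mul]
  right_inv x := by simp [Matrix.mulVec_mulVec, mat_mul_inv]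
  measurable_toFun := by
    apply Continuous.measurable
    exact (Continuous.matrix_mulVec continuous_const continuous_id).add continuous_const
  measurable_invFun := by
    apply Continuous.measurable
    exact Continuous.matrix_mulVec continuous_const (continuous_id.sub continuous_const)

theorem affEquiv_mp (A : Matrix.SpecialLinearGroup (Fin 3) ℤ) (c : Fin 3 → ℝ) :
    MeasurePreserving (affEquiv A c) := by
  have h1 : MeasurePreserving (fun x : Fin 3 → ℝ => (mat A).mulVec x) := by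
    refine ⟨(Continuous.matrix_mulVec continuous_const continuous_id).measurable, ?_⟩
    have := Real.map_matrix_volume_pi_eq_smul_volume_pi (M := mat A) (by rw [det_mat]; norm_num)
    rw [det_mat] at this
    simp only [inv_one, abs_one, ENNReal.ofReal_one, one_smul] at this
    exact this
  have h2 := measurePreserving_add_right (volume : Measure (Fin 3 → ℝ)) c
  exact h2.comp h1

/-- The mean of a periodic function over the cube is invariant under affine changes of variable
with integral unimodular linear part. -/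
theorem avg_affine {F : Type*} [NormedAddCommGroup F] [NormedSpace ℝ F]
    (A : Matrix.SpecialLinearGroup (Fin 3) ℤ) (c : Fin 3 → ℝ) (h : (Fin 3 → ℝ) → F)
    (hper : ∀ (x : Fin 3 → ℝ) (n : Fin 3 → ℤ), h (x + fun i => (n i : ℝ)) = h x) :
    ∫ x in cube, h ((mat A).mulVec x + c) = ∫ x in cube, h x := by
  have hD := ZSpan.isAddFundamentalDomain' (Pi.basisFun ℝ (Fin 3)) (volume : Measure (Fin 3 → ℝ))
  let e : Lat ≃ Lat :=
    { toFun := fun g => ⟨(mat A⁻¹).mulVec g, mat_mem_Lat A⁻¹ g.2⟩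
      invFun := fun g => ⟨(mat A).mulVec g, mat_mem_Lat A g.2⟩
      left_inv := fun g => by
        ext1; simp [Matrix.mulVec_mulVec, mat_mul_inv]
      right_inv := fun g => by
        ext1; simp [Matrix.mulVec_mulVec, mat_inv_mul] }
  have hD2 : IsAddFundamentalDomain Lat ((affEquiv A c).toEquiv '' cube) volume := by
    refine hD.image_of_equiv (affEquiv A c).toEquiv ?_ e ?_
    · exact ((affEquiv_mp A c).symm).quasiMeasurePreserving
    · intro g x
      change (mat A).mulVec ((mat A⁻¹).mulVec (g : Fin 3 → ℝ) + x) + c =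
        (g : Fin 3 → ℝ) + ((mat A).mulVec x + c)
      rw [Matrix.mulVec_add, Matrix.mulVec_mulVec, mat_mul_inv, Matrix.one_mulVec, add_assoc]
  have h1 : ∫ x in cube, h ((mat A).mulVec x + c) =
      ∫ x in ((affEquiv A c).toEquiv '' cube), h x := by
    have := (affEquiv_mp A c).setIntegral_image_emb (affEquiv A c).measurableEmbedding h cube
    exact this.symm
  rw [h1]
  refine hD2.setIntegral_eq hD ?_
  intro g x
  obtain ⟨n, hn⟩ := (mem_Lat _).1 g.2
  change h ((g : Fin 3 → ℝ) + x) = h x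
  rw [add_comm, hn, hper]

end Vale.Agent.P204aux
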