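import Mathlib
import Vale.Agent.P204.Average

open MeasureTheory Set
open scoped ContDiff

namespace Vale.Agent.P204aux

abbrev V := Fin 3 → ℝ

theorem cube_subset : cube ⊆ Icc (0 : V) 1 := by
  rw [cube, ZSpan.fundamentalDomain_pi_basisFun]
  intro x hx
  exact ⟨fun i => (hx i trivial).1, fun i => (hx i trivial).2.le⟩

theorem measurableSet_cube : MeasurableSet cube :=
  ZSpan.fundamentalDomain_measurableSet _

theorem volume_cube : (volume : Measure V) cube = 1 := by
  rw [cube, ZSpan.fundamentalDomain_pi_basisFun, volume_pi, Measure.pi_pi]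
  simp

instance : IsFiniteMeasure ((volume : Measure V).restrict cube) :=
  ⟨by rw [Measure.restrict_apply MeasurableSet.univ, univ_inter, volume_cube]; exact ENNReal.one_lt_top⟩

theorem integrableOn_cube {F : Type*} [NormedAddCommGroup F] {f : V → F} (hf : Continuous f) :
    IntegrableOn f cube :=
  (hf.continuousOn.integrableOn_compact isCompact_Icc).mono_set cube_subset

theorem swap_cube {F : V → ℝ → ℝ} (hF : Continuous (Function.uncurry F)) (a b : ℝ) :
    ∫ s in a..b, ∫ x in cube, F x s = ∫ x in cube, ∫ s in a..b, F x s := by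
  apply intervalIntegral_integral_swap
  have h1 : Continuous (Function.uncurry fun (s : ℝ) (x : V) => F x s) := by
    exact hF.comp (continuous_swap)
  have h2 : IntegrableOn (Function.uncurry fun (s : ℝ) (x : V) => F x s)
      (uIcc a b ×ˢ Icc (0 : V) 1) (volume.prod volume) :=
    h1.continuousOn.integrableOn_compact (isCompact_uIcc.prod isCompact_Icc)
  rw [Measure.prod_restrict]
  exact h2.mono_set (prod_mono uIoc_subset_uIcc cube_subset)

/-- The mean over a period of a directional derivative of a periodic function vanishes. -/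
theorem mean_deriv_zero {φ : V → ℝ} (hφ : ContDiff ℝ 1 φ)
    (hper : ∀ (x : V) (n : Fin 3 → ℤ), φ (x + fun i => (n i : ℝ)) = φ x) (u : V) :
    ∫ x in cube, fderiv ℝ φ x u = 0 := by
  have hdc : Continuous (fun x => fderiv ℝ φ x u) :=
    (hφ.continuous_fderiv (by simp)).clm_apply continuous_const
  have hdper : ∀ (x : V) (n : Fin 3 → ℤ), fderiv ℝ φ (x + fun i => (n i : ℝ)) u =
      fderiv ℝ φ x u := by
    intro x n
    have h1 : (fun y => φ (y + fun i => (n i : ℝ))) = φ := funext fun y => hper y n
    have h2 := fderiv_comp_add_right (𝕜 := ℝ) (f := φ) (x := x) (fun i => (n i : ℝ))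
    rw [h1] at h2
    rw [← h2]
  have hA : ∀ (g : V → ℝ), (∀ (x : V) (n : Fin 3 → ℤ), g (x + fun i => (n i : ℝ)) = g x) →
      ∀ c : V, ∫ x in cube, g (x + c) = ∫ x in cube, g x := by
    intro g hg c
    have := avg_affine 1 c g hg
    have h1 : mat 1 = 1 := by
      have h : mat 1 = (Int.castRingHom ℝ).mapMatrix
        ((1 : Matrix.SpecialLinearGroup (Fin 3) ℤ) : Matrix (Fin 3) (Fin 3) ℤ) := rfl
      rw [h, Matrix.SpecialLinearGroup.coe_one, map_one]
    simpa [h1] using this
  have h1 : ∫ x in cube, (φ (x + u) - φ x) = 0 := by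
    rw [integral_sub, hA φ hper u, sub_self]
    · exact integrableOn_cube (hφ.continuous.comp (by fun_prop))
    · exact integrableOn_cube hφ.continuous
  have h2 : ∀ x, φ (x + u) - φ x = ∫ s in (0 : ℝ)..1, fderiv ℝ φ (x + s • u) u := by
    intro x
    have hd : ∀ s ∈ uIcc (0 : ℝ) 1, HasDerivAt (fun s : ℝ => φ (x + s • u))
        (fderiv ℝ φ (x + s • u) u) s := by
      intro s _
      have h3 : HasDerivAt (fun s : ℝ => x + s • u) u s := by
        simpa using ((hasDerivAt_id s).smul_const u).const_add x
      exact ((hφ.differentiable (by simp) (x + s • u)).hasFDerivAt).comp_hasDerivAt s h3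
    have := intervalIntegral.integral_eq_sub_of_hasDerivAt hd
      ((hdc.comp (by fun_prop : Continuous fun s : ℝ => x + s • u)).intervalIntegrable _ _)
    rw [this]
    simp
  simp_rw [h2] at h1
  rw [← swap_cube (F := fun x s => fderiv ℝ φ (x + s • u) u)
    (hdc.comp (by fun_prop : Continuous fun p : V × ℝ => p.1 + p.2 • u))] at h1
  have h3 : ∀ s : ℝ, ∫ x in cube, fderiv ℝ φ (x + s • u) u = ∫ x in cube, fderiv ℝ φ x u :=
    fun s => hA (fun x => fderiv ℝ φ x u) hdper (s • u)
  simp_rw [h3] at h1
  simpa using h1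

end Vale.Agent.P204aux
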