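import Mathlib
import Vale.Agent.P204.Mean

open MeasureTheory Set
open scoped ContDiff

namespace Vale.Agent.P204aux

variable {om : V × ℝ → (V × ℝ) [⋀^Fin 2]→L[ℝ] ℝ}

theorem cd_apply (hom : ContDiff ℝ ∞ om) (w : Fin 2 → V × ℝ) : ContDiff ℝ ∞ (fun p => om p w) := by
  exact (ContinuousAlternatingMap.apply ℝ (V × ℝ) ℝ w).contDiff.comp hom

theorem closed_identity (hom : ContDiff ℝ ∞ om) (hcl : extDeriv om = 0) (p : V × ℝ) (u v : V) :
    fderiv ℝ (fun q => om q ![(u, 0), (v, 0)]) p (0, 1) =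
      fderiv ℝ (fun q => om q ![((0 : V), (1 : ℝ)), (v, 0)]) p (u, 0) -
      fderiv ℝ (fun q => om q ![((0 : V), (1 : ℝ)), (u, 0)]) p (v, 0) := by
  have h := extDeriv_apply (hom.differentiable (by simp) p)
    ![((0 : V), (1 : ℝ)), (u, 0), (v, 0)]
  rw [hcl] at h
  replace h : (0 : ℝ) = ∑ i : Fin 3, (-1 : ℤ) ^ i.val •
      fderiv ℝ (fun q => om q (i.removeNth ![((0 : V), (1 : ℝ)), (u, 0), (v, 0)])) p
        (![((0 : V), (1 : ℝ)), (u, 0), (v, 0)] i) := h
  rw [Fin.sum_univ_three] at h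
  have e0 : Fin.removeNth (0 : Fin 3) ![((0 : V), (1 : ℝ)), (u, 0), (v, 0)] =
      ![(u, 0), (v, 0)] := by
    ext i : 1; fin_cases i <;> rfl
  have e1 : Fin.removeNth (1 : Fin 3) ![((0 : V), (1 : ℝ)), (u, 0), (v, 0)] =
      ![((0 : V), (1 : ℝ)), (v, 0)] := by
    ext i : 1; fin_cases i <;> rfl
  have e2 : Fin.removeNth (2 : Fin 3) ![((0 : V), (1 : ℝ)), (u, 0), (v, 0)] =
      ![((0 : V), (1 : ℝ)), (u, 0)] := by
    ext i : 1; fin_cases i <;> rfl
  rw [e0, e1, e2] at h
  simp at h
  linarith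

theorem mean_const (hom : ContDiff ℝ ∞ om) (hcl : extDeriv om = 0)
    (hper : ∀ (x : V) (t : ℝ) (n : Fin 3 → ℤ), om (x + fun i => (n i : ℝ), t) = om (x, t))
    (u v : V) (t : ℝ) :
    ∫ x in cube, om (x, t) ![(u, 0), (v, 0)] = ∫ x in cube, om (x, 0) ![(u, 0), (v, 0)] := by
  -- mean of a fibre derivative vanishes
  have key : ∀ (w : Fin 2 → V × ℝ) (c : V) (s : ℝ),
      ∫ x in cube, fderiv ℝ (fun q => om q w) (x, s) (c, 0) = 0 := by
    intro w c s
    have h1 : ContDiff ℝ 1 (fun x : V => om (x, s) w) :=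
      ((cd_apply hom w).comp (by fun_prop : ContDiff ℝ ∞ fun x : V => (x, s))).of_le (by simp)
    have h2 := mean_deriv_zero h1 (fun x n => by rw [hper]) c
    refine (integral_congr_ae (Filter.Eventually.of_forall fun x => ?_)).trans h2
    have h3 : HasFDerivAt (fun x : V => (x, s)) (ContinuousLinearMap.inl ℝ V ℝ) x :=
      hasFDerivAt_prodMk_left x s
    have h4 := (((cd_apply hom w).differentiable (by simp) (x, s)).hasFDerivAt).comp x h3
    have h5 := h4.fderiv
    simp only [Function.comp_def] at h5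
    simp only [h5]
    rfl
  set f : V → ℝ → ℝ := fun x s => fderiv ℝ (fun q => om q ![(u, 0), (v, 0)]) (x, s) (0, 1) with hf
  have hfc : Continuous (Function.uncurry f) := by
    have h1 := ((cd_apply hom ![(u, 0), (v, 0)]).continuous_fderiv (by simp)).clm_apply
      (continuous_const : Continuous fun _ => ((0 : V), (1 : ℝ)))
    exact h1
  have h1 : ∀ x, om (x, t) ![(u, 0), (v, 0)] - om (x, 0) ![(u, 0), (v, 0)] =
      ∫ s in (0 : ℝ)..t, f x s := by
    intro x
    have hd : ∀ s ∈ uIcc (0 : ℝ) t,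
        HasDerivAt (fun s : ℝ => om (x, s) ![(u, 0), (v, 0)]) (f x s) s := by
      intro s _
      have h3 : HasDerivAt (fun s : ℝ => (x, s)) ((0 : V), (1 : ℝ)) s :=
        (hasDerivAt_const s x).prodMk (hasDerivAt_id s)
      exact (((cd_apply hom _).differentiable (by simp) (x, s)).hasFDerivAt).comp_hasDerivAt s h3
    have := intervalIntegral.integral_eq_sub_of_hasDerivAt hd
      ((hfc.comp (by fun_prop : Continuous fun s : ℝ => (x, s))).intervalIntegrable _ _)
    rw [this]
  have hc : ∀ s : ℝ, Continuous fun x : V => om (x, s) ![(u, 0), (v, 0)] := fun s =>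
    (cd_apply hom _).continuous.comp (by fun_prop)
  rw [← sub_eq_zero, ← integral_sub (integrableOn_cube (hc t)) (integrableOn_cube (hc 0))]
  simp_rw [h1]
  rw [← swap_cube hfc]
  have h2 : ∀ s, ∫ x in cube, f x s = 0 := by
    intro s
    simp only [hf, closed_identity hom hcl]
    have hcont : ∀ (w : Fin 2 → V × ℝ) (c : V × ℝ),
        Continuous fun x : V => fderiv ℝ (fun q => om q w) (x, s) c := fun w c =>
      (((cd_apply hom w).continuous_fderiv (by simp)).clm_apply continuous_const).comp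
        (by fun_prop : Continuous fun x : V => (x, s))
    rw [integral_sub (integrableOn_cube (hcont _ _)) (integrableOn_cube (hcont _ _)), key, key,
      sub_zero]
  simp [h2]

end Vale.Agent.P204aux
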