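import Mathlib
import Vale.Agent.P204.MeanForm

open Set
open scoped ContDiff

namespace Vale.Agent.P204aux

abbrev EE := V × ℝ

noncomputable def ofS : (EE →L[ℝ] ℝ) →L[ℝ] (EE [⋀^Fin 1]→L[ℝ] ℝ) :=
  (ContinuousAlternatingMap.ofSubsingletonLIE (𝕜 := ℝ) (E := EE) (F := ℝ)
        (0 : Fin 1)).toContinuousLinearEquiv.toContinuousLinearMap

/-- antisymmetrization of a bilinear form -/
noncomputable def toAlt : (EE →L[ℝ] EE →L[ℝ] ℝ) →L[ℝ] EE [⋀^Fin 2]→L[ℝ] ℝ :=
  (1 / 2 : ℝ) • (ContinuousAlternatingMap.alternatizeUncurryFinCLM ℝ EE ℝ (n := 1)).comp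
    (ContinuousLinearMap.compL ℝ EE (EE →L[ℝ] ℝ) (EE [⋀^Fin 1]→L[ℝ] ℝ)
      ofS)

theorem toAlt_apply (b : EE →L[ℝ] EE →L[ℝ] ℝ) (u v : EE) :
    toAlt b ![u, v] = (b u v - b v u) / 2 := by
  have h : toAlt b ![u, v] = (1 / 2 : ℝ) * ∑ i : Fin 2, (-1 : ℤ) ^ i.val •
      (b (![u, v] i) ((i.removeNth ![u, v]) 0)) := by
    change (1 / 2 : ℝ) • (ContinuousAlternatingMap.alternatizeUncurryFin (ofS.comp b) ![u, v]) = _
    rw [ContinuousAlternatingMap.alternatizeUncurryFin_apply]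
    rfl
  rw [h, Fin.sum_univ_two]
  have e0 : (Fin.removeNth (0 : Fin 2) ![u, v]) 0 = v := rfl
  have e1 : (Fin.removeNth (1 : Fin 2) ![u, v]) 0 = u := rfl
  rw [e0, e1]
  simp
  ring

noncomputable def th : EE →L[ℝ] ℝ := ContinuousLinearMap.snd ℝ V ℝ

def tau : EE := (0, 1)

theorem th_tau : th tau = 1 := rfl

variable (J : EE →L[ℝ] EE) (B : EE →L[ℝ] EE →L[ℝ] ℝ) (s : ℝ)

noncomputable def xi : EE := (1 + (th (J tau)) ^ 2)⁻¹ • (-(J tau) + th (J tau) • tau)

noncomputable def kap : EE →L[ℝ] EE :=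
  ContinuousLinearMap.id ℝ EE - (th.comp J).smulRight (xi J) - th.smulRight (J (xi J))

theorem kap_apply (u : EE) : kap J u = u - th (J u) • xi J - th u • J (xi J) := rfl

noncomputable def b0 : EE →L[ℝ] EE →L[ℝ] ℝ :=
  B.bilinearComp (kap J) (kap J) +
    (2 : ℝ) • ((th.comp J).smulRight ((B (xi J)).comp (kap J))) -
    (2 : ℝ) • (th.smulRight ((B (xi J)).comp (J.comp (kap J)))) +
    (2 * s) • ((th.comp J).smulRight th)

theorem b0_apply (u v : EE) : b0 J B s u v = B (kap J u) (kap J v) +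
    2 * (th (J u) * B (xi J) (kap J v)) - 2 * (th u * B (xi J) (J (kap J v))) +
    2 * s * (th (J u) * th v) := rfl

/-- the candidate compatible form -/
noncomputable def W : EE [⋀^Fin 2]→L[ℝ] ℝ := toAlt (b0 J B s)

variable {J B}

theorem W_apply (hB : ∀ u v, B u v = -B v u) (u v : EE) : W J B s ![u, v] =
    B (kap J u) (kap J v) + (th (J u) * B (xi J) (kap J v) - th (J v) * B (xi J) (kap J u)) +
    (th v * B (xi J) (J (kap J u)) - th u * B (xi J) (J (kap J v))) +
    s * (th (J u) * th v - th (J v) * th u) := by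
  rw [W, toAlt_apply, b0_apply, b0_apply, hB (kap J v) (kap J u)]
  ring

section
variable (hJ : ∀ v, J (J v) = -v)
include hJ

theorem th_xi : th (xi J) = 0 := by
  rw [xi, map_smul, map_add, map_neg, map_smul, th_tau]
  simp

theorem th_J_xi : th (J (xi J)) = 1 := by
  have h0 : (1 + (th (J tau)) ^ 2) ≠ 0 := by positivity
  have h1 : J (-(J tau) + th (J tau) • tau) = tau + th (J tau) • J tau := by
    rw [map_add, map_neg, hJ, map_smul, neg_neg]
  rw [xi, map_smul, map_smul, h1, map_add, map_smul, th_tau]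
  simp only [smul_eq_mul]
  field_simp

theorem th_kap (u : EE) : th (kap J u) = 0 := by
  rw [kap_apply, map_sub, map_sub, map_smul, map_smul, th_xi hJ, th_J_xi hJ]
  simp

theorem th_J_kap (u : EE) : th (J (kap J u)) = 0 := by
  rw [kap_apply, map_sub, map_sub, map_smul, map_smul, map_sub, map_sub, map_smul, map_smul, hJ,
    map_neg, th_xi hJ, th_J_xi hJ]
  simp

theorem kap_J (u : EE) : kap J (J u) = J (kap J u) := by
  rw [kap_apply, kap_apply, hJ, map_sub, map_sub, map_smul, map_smul, hJ, map_neg]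
  module

theorem W_on_fibre (hB : ∀ u v, B u v = -B v u) (u v : EE) (hu : th u = 0) (hv : th v = 0) :
    W J B s ![u, v] = B u v := by
  have h0 : B (xi J) (xi J) = 0 := by
    have := hB (xi J) (xi J); linarith
  rw [W_apply s hB, hu, hv, kap_apply, kap_apply, hu, hv]
  simp only [zero_smul, sub_zero, map_sub, map_smul, sub_apply, smul_apply, smul_eq_mul, h0]
  rw [hB u (xi J)]
  ring

/-- on the complex line `K` an alternating form is `J`-invariant -/
theorem B_J_inv (hB : ∀ u v, B u v = -B v u) {k₁ k₂ : EE} (h1 : th k₁ = 0) (h1' : th (J k₁) = 0)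
    (h2 : th k₂ = 0) (h2' : th (J k₂) = 0) : B (J k₁) (J k₂) = B k₁ k₂ := by
  have hBz : ∀ u, B u u = 0 := fun u => by have := hB u u; linarith
  by_cases hk : k₁ = 0
  · simp [hk]
  -- the map (θ, θ ∘ J) has two-dimensional kernel
  let Θ : EE →ₗ[ℝ] ℝ × ℝ := ((th : EE →ₗ[ℝ] ℝ).prod ((th.comp J : EE →L[ℝ] ℝ) : EE →ₗ[ℝ] ℝ))
  have hsurj : Function.Surjective Θ := by
    rintro ⟨a, b⟩
    refine ⟨b • xi J + a • J (xi J), ?_⟩
    change (th (b • xi J + a • J (xi J)), th (J (b • xi J + a • J (xi J)))) = (a, b)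
    rw [map_add, map_smul, map_smul, map_add, map_smul, map_smul, hJ, map_add, map_smul, map_smul,
      map_neg, th_xi hJ, th_J_xi hJ]
    simp
  have hfin : Module.finrank ℝ (LinearMap.ker Θ) = 2 := by
    have h3 := LinearMap.finrank_range_add_finrank_ker Θ
    rw [LinearMap.range_eq_top.2 hsurj, finrank_top] at h3
    have h4 : Module.finrank ℝ EE = 4 := by simp
    have h5 : Module.finrank ℝ (ℝ × ℝ) = 2 := by simp
    omega
  have hk1 : k₁ ∈ LinearMap.ker Θ := by
    rw [LinearMap.mem_ker]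
    change (th k₁, th (J k₁)) = (0, 0)
    rw [h1, h1']
  have hJk1 : J k₁ ∈ LinearMap.ker Θ := by
    rw [LinearMap.mem_ker]
    change (th (J k₁), th (J (J k₁))) = (0, 0)
    rw [hJ, map_neg, h1, h1', neg_zero]
  have hk2 : k₂ ∈ LinearMap.ker Θ := by
    rw [LinearMap.mem_ker]
    change (th k₂, th (J k₂)) = (0, 0)
    rw [h2, h2']
  have hli : LinearIndependent ℝ ![(⟨k₁, hk1⟩ : LinearMap.ker Θ), ⟨J k₁, hJk1⟩] := by
    rw [LinearIndependent.pair_iff]
    intro a b hab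
    have h6 : a • k₁ + b • J k₁ = 0 := congrArg Subtype.val hab
    have h7 : a • J k₁ - b • k₁ = 0 := by
      have := congrArg J h6
      rw [map_add, map_smul, map_smul, hJ, map_zero] at this
      rw [← this]; module
    have h8 : (a ^ 2 + b ^ 2) • k₁ = 0 := by
      have : (a ^ 2 + b ^ 2) • k₁ = a • (a • k₁ + b • J k₁) - b • (a • J k₁ - b • k₁) := by module
      rw [this, h6, h7]; simp
    rcases smul_eq_zero.1 h8 with h9 | h9
    · constructor <;> nlinarith [sq_nonneg a, sq_nonneg b]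
    · exact absurd h9 hk
  have hspan : Submodule.span ℝ (Set.range ![(⟨k₁, hk1⟩ : LinearMap.ker Θ), ⟨J k₁, hJk1⟩]) = ⊤ :=
    hli.span_eq_top_of_card_eq_finrank' (by simp [hfin])
  have hmem : (⟨k₂, hk2⟩ : LinearMap.ker Θ) ∈
      Submodule.span ℝ (Set.range ![(⟨k₁, hk1⟩ : LinearMap.ker Θ), ⟨J k₁, hJk1⟩]) := by
    rw [hspan]; trivial
  rw [Matrix.range_cons, Matrix.range_cons, Matrix.range_empty, Set.union_empty,
    Set.singleton_union, Submodule.mem_span_pair] at hmem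
  obtain ⟨a, b, hab⟩ := hmem
  have h10 : k₂ = a • k₁ + b • J k₁ := (congrArg Subtype.val hab).symm
  rw [h10, map_add, map_smul, map_smul, hJ]
  simp only [map_add, map_smul, map_neg, smul_eq_mul, hBz]
  rw [hB (J k₁) k₁]
  ring

theorem W_J_inv (hB : ∀ u v, B u v = -B v u) (u v : EE) :
    W J B s ![J u, J v] = W J B s ![u, v] := by
  rw [W_apply s hB, W_apply s hB, kap_J hJ, kap_J hJ, hJ, hJ, hJ, hJ,
    B_J_inv hJ hB (th_kap hJ u) (th_J_kap hJ u) (th_kap hJ v) (th_J_kap hJ v)]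
  simp only [map_neg]
  ring

theorem W_tame_apply (hB : ∀ u v, B u v = -B v u) (v : EE) :
    W J B s ![v, J v] = (B (kap J v) (J (kap J v)) + 2 * (th (J v) * B (xi J) (J (kap J v))) +
      2 * (th v * B (xi J) (kap J v))) + s * (th (J v) ^ 2 + th v ^ 2) := by
  rw [W_apply s hB, kap_J hJ, hJ, hJ]
  simp only [map_neg]
  ring

theorem kap_eq_self {v : EE} (h : th (J v) ^ 2 + th v ^ 2 = 0) :
    kap J v = v ∧ th (J v) = 0 ∧ th v = 0 := by
  have h1 : th (J v) = 0 := by nlinarith [sq_nonneg (th (J v)), sq_nonneg (th v)]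
  have h2 : th v = 0 := by nlinarith [sq_nonneg (th (J v)), sq_nonneg (th v)]
  refine ⟨?_, h1, h2⟩
  rw [kap_apply, h1, h2]; simp

end

end Vale.Agent.P204aux
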