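import Mathlib
import Vale.Agent.P204.Algebra

open Set
open scoped ContDiff

namespace Vale.Agent.P204aux

/-- linear part of the deck transformation -/
def lin (A : Matrix.SpecialLinearGroup (Fin 3) ℤ) (v : EE) : EE := ((mat A).mulVec v.1, v.2)

theorem lin_add (A : Matrix.SpecialLinearGroup (Fin 3) ℤ) (u v : EE) :
    lin A (u + v) = lin A u + lin A v := by
  simp [lin, Matrix.mulVec_add]

theorem lin_smul (A : Matrix.SpecialLinearGroup (Fin 3) ℤ) (c : ℝ) (v : EE) :
    lin A (c • v) = c • lin A v := by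
  simp [lin, Matrix.mulVec_smul]

theorem lin_neg (A : Matrix.SpecialLinearGroup (Fin 3) ℤ) (v : EE) : lin A (-v) = -lin A v := by
  simp [lin, Matrix.mulVec_neg]

theorem lin_sub (A : Matrix.SpecialLinearGroup (Fin 3) ℤ) (u v : EE) :
    lin A (u - v) = lin A u - lin A v := by
  rw [sub_eq_add_neg, lin_add, lin_neg, sub_eq_add_neg]

theorem lin_tau (A : Matrix.SpecialLinearGroup (Fin 3) ℤ) : lin A tau = tau := by
  simp [lin, tau]

theorem th_lin (A : Matrix.SpecialLinearGroup (Fin 3) ℤ) (v : EE) : th (lin A v) = th v := rfl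

theorem lin_inv (A : Matrix.SpecialLinearGroup (Fin 3) ℤ) (v : EE) :
    lin A (lin A⁻¹ v) = v := by
  simp [lin, Matrix.mulVec_mulVec, mat_mul_inv]

theorem lin_ne_zero (A : Matrix.SpecialLinearGroup (Fin 3) ℤ) {v : EE} (hv : v ≠ 0) :
    lin A⁻¹ v ≠ 0 := by
  intro h
  apply hv
  have := lin_inv A v
  rw [h] at this
  rw [← this]
  simp [lin]

section Equivariance

variable {J J' : EE →L[ℝ] EE} {B : EE →L[ℝ] EE →L[ℝ] ℝ} {A : Matrix.SpecialLinearGroup (Fin 3) ℤ}
  (hJJ : ∀ v, J' (lin A v) = lin A (J v))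
include hJJ

theorem xi_equiv : xi J' = lin A (xi J) := by
  have h1 : J' tau = lin A (J tau) := by rw [← hJJ, lin_tau]
  rw [xi, xi, lin_smul, lin_add, lin_neg, lin_smul, lin_tau, h1, th_lin]

theorem kap_equiv (v : EE) : kap J' (lin A v) = lin A (kap J v) := by
  rw [kap_apply, kap_apply, lin_sub, lin_sub, lin_smul, lin_smul, xi_equiv hJJ, hJJ, hJJ, th_lin,
    th_lin]

theorem W_equiv (s : ℝ) (hJ : ∀ v, J (J v) = -v) (hB : ∀ u v, B u v = -B v u)
    (hBA : ∀ u v, th u = 0 → th v = 0 → B (lin A u) (lin A v) = B u v) (u v : EE) :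
    W J' B s ![lin A u, lin A v] = W J B s ![u, v] := by
  rw [W_apply s hB, W_apply s hB, kap_equiv hJJ, kap_equiv hJJ, xi_equiv hJJ, hJJ, hJJ, hJJ, hJJ,
    th_lin, th_lin, th_lin, th_lin, hBA _ _ (th_kap hJ u) (th_kap hJ v),
    hBA _ _ (th_xi hJ) (th_kap hJ v), hBA _ _ (th_xi hJ) (th_kap hJ u),
    hBA _ _ (th_xi hJ) (th_J_kap hJ u), hBA _ _ (th_xi hJ) (th_J_kap hJ v)]

end Equivariance

section Smooth

variable {j : ℝ → EE →L[ℝ] EE} (hj : ContDiff ℝ ∞ j)
include hj

theorem xi_smooth : ContDiff ℝ ∞ (fun t => xi (j t)) := by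
  unfold xi
  have h1 : ContDiff ℝ ∞ (fun t => j t tau) := by fun_prop
  have h2 : ContDiff ℝ ∞ (fun t => th (j t tau)) := th.contDiff.comp h1
  have h3 : ContDiff ℝ ∞ (fun t => (1 + th (j t tau) ^ 2)⁻¹) :=
    ContDiff.inv (by fun_prop) (fun t => by positivity)
  have h4 : ContDiff ℝ ∞ (fun t => -(j t tau) + th (j t tau) • tau) := by fun_prop
  exact h3.smul h4

theorem kap_smooth : ContDiff ℝ ∞ (fun t => kap (j t)) := by
  have h1 := xi_smooth hj
  rw [contDiff_clm_apply_iff]
  intro v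
  simp only [kap_apply]
  have h2 : ContDiff ℝ ∞ (fun t => th (j t v)) := th.contDiff.comp (by fun_prop)
  fun_prop

theorem b0_smooth (B : EE →L[ℝ] EE →L[ℝ] ℝ) (s : ℝ) : ContDiff ℝ ∞ (fun t => b0 (j t) B s) := by
  have h1 := xi_smooth hj
  have h3 := kap_smooth hj
  rw [contDiff_clm_apply_iff]
  intro u
  rw [contDiff_clm_apply_iff]
  intro v
  simp only [b0_apply]
  have h2 : ContDiff ℝ ∞ (fun t => th (j t u)) := th.contDiff.comp (by fun_prop)
  have h4 : ContDiff ℝ ∞ (fun t => B (kap (j t) u)) := B.contDiff.comp (by fun_prop)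
  have h5 : ContDiff ℝ ∞ (fun t => B (xi (j t))) := B.contDiff.comp h1
  fun_prop

theorem W_smooth (B : EE →L[ℝ] EE →L[ℝ] ℝ) (s : ℝ) : ContDiff ℝ ∞ (fun t => W (j t) B s) := by
  have h := b0_smooth hj B s
  change ContDiff ℝ ∞ (fun t => toAlt (b0 (j t) B s))
  exact toAlt.contDiff.comp h

end Smooth

theorem W_decomp {J : EE →L[ℝ] EE} {B : EE →L[ℝ] EE →L[ℝ] ℝ} (s : ℝ) (hJ : ∀ v, J (J v) = -v)
    (hB : ∀ u v, B u v = -B v u) (u v : EE) :
    W J B s ![u, v] = B (u - th u • tau) (v - th v • tau) + th u * W J B s ![tau, v] -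
      th v * W J B s ![tau, u] := by
  have h1 : W J B s ![u, v] = (b0 J B s u v - b0 J B s v u) / 2 := toAlt_apply _ _ _
  have h2 : W J B s ![tau, v] = (b0 J B s tau v - b0 J B s v tau) / 2 := toAlt_apply _ _ _
  have h3 : W J B s ![tau, u] = (b0 J B s tau u - b0 J B s u tau) / 2 := toAlt_apply _ _ _
  have h4 : W J B s ![u - th u • tau, v - th v • tau] = B (u - th u • tau) (v - th v • tau) := by
    apply W_on_fibre s hJ hB
    · rw [map_sub, map_smul, th_tau]; simp
    · rw [map_sub, map_smul, th_tau]; simp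
  have h5 : W J B s ![u - th u • tau, v - th v • tau] = (b0 J B s (u - th u • tau)
    (v - th v • tau) - b0 J B s (v - th v • tau) (u - th u • tau)) / 2 := toAlt_apply _ _ _
  rw [← h4, h5, h1, h2, h3]
  simp only [map_sub, map_smul, sub_apply, smul_apply, smul_eq_mul]
  ring

theorem W_closed {j : ℝ → EE →L[ℝ] EE} (hj : ContDiff ℝ ∞ j) {B : EE →L[ℝ] EE →L[ℝ] ℝ} (s : ℝ)
    (hJ : ∀ t v, j t (j t v) = -v) (hB : ∀ u v, B u v = -B v u) :
    extDeriv (fun p : EE => W (j p.2) B s) = 0 := by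
  have hW := W_smooth hj B s
  have hWE : ContDiff ℝ ∞ (fun p : EE => W (j p.2) B s) := hW.comp contDiff_snd
  funext p
  ext w
  rw [extDeriv_apply (hWE.differentiable (by simp) p)]
  -- derivative of the coefficients
  have hl : ∀ v : EE, ∃ l : ℝ, HasDerivAt (fun t => W (j t) B s ![tau, v]) l p.2 := by
    intro v
    have h1 : ContDiff ℝ ∞ (fun t => W (j t) B s ![tau, v]) :=
      (ContinuousAlternatingMap.apply ℝ EE ℝ ![tau, v]).contDiff.comp hW
    exact ⟨_, (h1.differentiable (by simp) p.2).hasDerivAt⟩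
  choose l hl using hl
  have hd : ∀ u v c : EE, fderiv ℝ (fun q : EE => W (j q.2) B s ![u, v]) p c =
      th c * (th u * l v - th v * l u) := by
    intro u v c
    have h1 : (fun q : EE => W (j q.2) B s ![u, v]) = fun q : EE =>
        B (u - th u • tau) (v - th v • tau) + th u * W (j q.2) B s ![tau, v] -
          th v * W (j q.2) B s ![tau, u] := by
      funext q; exact W_decomp s (hJ q.2) hB u v
    have h2 : HasDerivAt (fun t => B (u - th u • tau) (v - th v • tau) +
        th u * W (j t) B s ![tau, v] - th v * W (j t) B s ![tau, u])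
        (th u * l v - th v * l u) p.2 := by
      have := (((hl v).const_mul (th u)).const_add (B (u - th u • tau) (v - th v • tau))).sub
        ((hl u).const_mul (th v))
      exact this
    have h3 : HasFDerivAt (fun q : EE => q.2) (ContinuousLinearMap.snd ℝ V ℝ) p := hasFDerivAt_snd
    have h4 := h2.comp_hasFDerivAt p h3
    rw [h1]
    simp only [Function.comp_def] at h4
    rw [h4.fderiv]
    simp only [smul_apply, smul_eq_mul]
    rw [mul_comm]
    rfl
  have hsum : (∑ i : Fin 3, (-1 : ℤ) ^ i.val • fderiv ℝ (fun q : EE =>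
      W (j q.2) B s (i.removeNth w)) p (w i)) = 0 := by
    rw [Fin.sum_univ_three]
    have e0 : Fin.removeNth (0 : Fin 3) w = ![w 1, w 2] := by
      ext i : 1; fin_cases i <;> rfl
    have e1 : Fin.removeNth (1 : Fin 3) w = ![w 0, w 2] := by
      ext i : 1; fin_cases i <;> rfl
    have e2 : Fin.removeNth (2 : Fin 3) w = ![w 0, w 1] := by
      ext i : 1; fin_cases i <;> rfl
    rw [e0, e1, e2, hd, hd, hd]
    simp
    ring
  exact hsum

/-- compactness: a large constant makes the form positive -/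
theorem exists_const {j : ℝ → EE →L[ℝ] EE} (hj : ContDiff ℝ ∞ j) {B : EE →L[ℝ] EE →L[ℝ] ℝ}
    (hJ : ∀ t v, j t (j t v) = -v)
    (hpos : ∀ t v, v ≠ 0 → th v = 0 → th (j t v) = 0 → 0 < B v (j t v)) :
    ∃ s : ℝ, ∀ t ∈ Icc (0 : ℝ) 1, ∀ v : EE, v ≠ 0 →
      0 < (B (kap (j t) v) (j t (kap (j t) v)) +
        2 * (th (j t v) * B (xi (j t)) (j t (kap (j t) v))) +
        2 * (th v * B (xi (j t)) (kap (j t) v))) + s * (th (j t v) ^ 2 + th v ^ 2) := by
  set F : ℝ × EE → ℝ := fun q => B (kap (j q.1) q.2) (j q.1 (kap (j q.1) q.2)) +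
        2 * (th (j q.1 q.2) * B (xi (j q.1)) (j q.1 (kap (j q.1) q.2))) +
        2 * (th q.2 * B (xi (j q.1)) (kap (j q.1) q.2)) with hF
  set P : ℝ × EE → ℝ := fun q => th (j q.1 q.2) ^ 2 + th q.2 ^ 2 with hP
  have hjc := hj.continuous
  have hxc := (xi_smooth hj).continuous
  have hkc := (kap_smooth hj).continuous
  have h1 : Continuous fun q : ℝ × EE => j q.1 q.2 := (hjc.comp continuous_fst).clm_apply continuous_snd
  have h2 : Continuous fun q : ℝ × EE => kap (j q.1) q.2 :=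
    (hkc.comp continuous_fst).clm_apply continuous_snd
  have h3 : Continuous fun q : ℝ × EE => j q.1 (kap (j q.1) q.2) :=
    (hjc.comp continuous_fst).clm_apply h2
  have h4 : Continuous fun q : ℝ × EE => B (xi (j q.1)) := B.continuous.comp (hxc.comp continuous_fst)
  have h5 : Continuous fun q : ℝ × EE => B (kap (j q.1) q.2) := B.continuous.comp h2
  have h6 : Continuous fun q : ℝ × EE => th (j q.1 q.2) := th.continuous.comp h1
  have h7 : Continuous fun q : ℝ × EE => th q.2 := th.continuous.comp continuous_snd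
  have hFc : Continuous F := by
    have e1 := h5.clm_apply h3
    have e2 := h4.clm_apply h3
    have e3 := h4.clm_apply h2
    simp only [hF]
    exact (e1.add (continuous_const.mul (h6.mul e2))).add (continuous_const.mul (h7.mul e3))
  have hPc : Continuous P := by
    simp only [hP]
    exact (h6.pow 2).add (h7.pow 2)
  set K : Set (ℝ × EE) := Icc (0 : ℝ) 1 ×ˢ Metric.sphere (0 : EE) 1 with hK
  have hKc : IsCompact K := isCompact_Icc.prod (isCompact_sphere _ _)
  -- the set where F ≤ 0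
  set K' : Set (ℝ × EE) := K ∩ {q | F q ≤ 0} with hK'
  have hK'c : IsCompact K' := hKc.inter_right (isClosed_le hFc continuous_const)
  have hPpos : ∀ q ∈ K', 0 < P q := by
    rintro ⟨t, v⟩ ⟨⟨-, hv⟩, hq⟩
    by_contra hle
    have h8 : P (t, v) = 0 := le_antisymm (not_lt.1 hle) (by simp only [hP]; positivity)
    obtain ⟨h9, h10, h11⟩ := kap_eq_self (hJ t) h8
    have hv0 : v ≠ 0 := by
      rintro rfl
      simp at hv
    have h12 : F (t, v) = B v (j t v) := by
      simp only [hF, h9, h10, h11]; ring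
    have := hpos t v hv0 h11 h10
    rw [← h12] at this
    exact absurd hq (not_le.2 this)
  obtain ⟨M, hM⟩ : ∃ M, ∀ q ∈ K', -F q ≤ M := by
    obtain ⟨C, hC⟩ := hK'c.exists_bound_of_continuousOn hFc.continuousOn
    exact ⟨C, fun q hq => (neg_le_abs _).trans (hC q hq)⟩
  obtain ⟨m, hm0, hm⟩ : ∃ m, 0 < m ∧ ∀ q ∈ K', m ≤ P q := by
    rcases K'.eq_empty_or_nonempty with he | hne
    · exact ⟨1, one_pos, by simp [he]⟩
    · obtain ⟨q0, hq0, hmin⟩ := hK'c.exists_isMinOn hne hPc.continuousOn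
      exact ⟨P q0, hPpos q0 hq0, fun q hq => hmin hq⟩
  refine ⟨(max M 0 + 1) / m, ?_⟩
  have hs0 : 0 ≤ (max M 0 + 1) / m := by positivity
  have hunit : ∀ q ∈ K, 0 < F q + (max M 0 + 1) / m * P q := by
    intro q hq
    by_cases hFq : F q ≤ 0
    · have h8 := hM q ⟨hq, hFq⟩
      have h9 := hm q ⟨hq, hFq⟩
      have h10 : max M 0 + 1 ≤ (max M 0 + 1) / m * P q := by
        rw [div_mul_eq_mul_div, le_div_iff₀ hm0]
        exact mul_le_mul_of_nonneg_left h9 (by positivity)
      have h11 : M ≤ max M 0 := le_max_left _ _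
      linarith
    · have h8 : 0 ≤ P q := by simp only [hP]; positivity
      have := mul_nonneg hs0 h8
      push Not at hFq
      linarith
  intro t ht v hv
  have hn : 0 < ‖v‖ := norm_pos_iff.2 hv
  have hmem : (t, ‖v‖⁻¹ • v) ∈ K := by
    refine ⟨ht, ?_⟩
    rw [mem_sphere_zero_iff_norm, norm_smul, norm_inv, norm_norm, inv_mul_cancel₀ hn.ne']
  have h8 := hunit _ hmem
  have h9 : F (t, ‖v‖⁻¹ • v) + (max M 0 + 1) / m * P (t, ‖v‖⁻¹ • v) =
      (‖v‖⁻¹) ^ 2 * (F (t, v) + (max M 0 + 1) / m * P (t, v)) := by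
    simp only [hF, hP, map_smul, smul_apply, smul_eq_mul]
    ring
  rw [h9] at h8
  have h10 : 0 < (‖v‖⁻¹) ^ 2 := by positivity
  exact pos_of_mul_pos_right h8 h10.le

end Vale.Agent.P204aux
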