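import Mathlib
import Vale.Agent.P204.Construct

open MeasureTheory
open scoped ContDiff

namespace Vale.Agent.P204aux

noncomputable def toBil (f : EE [⋀^Fin 2]→L[ℝ] ℝ) : EE →L[ℝ] EE →L[ℝ] ℝ :=
  ((ContinuousAlternatingMap.ofSubsingletonLIE (𝕜 := ℝ) (E := EE) (F := ℝ)
        (0 : Fin 1)).symm.toContinuousLinearEquiv.toContinuousLinearMap).comp f.curryLeft

theorem toBil_apply (f : EE [⋀^Fin 2]→L[ℝ] ℝ) (u v : EE) : toBil f u v = f ![u, v] := by
  have h : toBil f u v = f (Matrix.vecCons u (fun _ : Fin 1 => v)) := rfl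
  rw [h]
  congr 1
  ext i : 1
  fin_cases i <;> rfl

theorem alt_swap (f : EE [⋀^Fin 2]→L[ℝ] ℝ) (u v : EE) : f ![u, v] = -f ![v, u] := by
  have h := f.map_swap ![u, v] (i := 0) (j := 1) (by decide)
  have h2 : (![u, v] ∘ (Equiv.swap (0 : Fin 2) 1)) = ![v, u] := by
    ext i : 1; fin_cases i <;> rfl
  rw [h2] at h
  have h3 : f ![v, u] = - f ![u, v] := h
  rw [h3, neg_neg]

/-- The core statement, in terms of plain functions. -/
theorem core (A : Matrix.SpecialLinearGroup (Fin 3) ℤ) {J : EE → EE →L[ℝ] EE}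
    (hJs : ContDiff ℝ ∞ J) (hJ2 : ∀ p v, J p (J p v) = -v)
    (hJmon : ∀ p : EE, ∀ v, J ((mat A).mulVec p.1, p.2 + 1) (lin A v) = lin A (J p v))
    (hJinv : ∀ (x y : V) (t : ℝ), J (x, t) = J (y, t))
    {w : EE → EE [⋀^Fin 2]→L[ℝ] ℝ} (hws : ContDiff ℝ ∞ w) (hcl : extDeriv w = 0)
    (hwt : ∀ (x : V) (t : ℝ) (n : Fin 3 → ℤ), w (x + fun i => (n i : ℝ), t) = w (x, t))
    (hwmon : ∀ p : EE, ∀ u v, w ((mat A).mulVec p.1, p.2 + 1) ![lin A u, lin A v] = w p ![u, v])
    (htame : ∀ p v, v ≠ 0 → 0 < w p ![v, J p v]) :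
    ∃ b : ℝ → EE →L[ℝ] EE →L[ℝ] ℝ, ContDiff ℝ ∞ b ∧
      extDeriv (fun p : EE => toAlt (b p.2)) = 0 ∧
      (∀ t u v, toAlt (b (t + 1)) ![lin A u, lin A v] = toAlt (b t) ![u, v]) ∧
      (∀ (p : EE) v, v ≠ 0 → 0 < toAlt (b p.2) ![v, J p v]) ∧
      (∀ (p : EE) u v, toAlt (b p.2) ![J p u, J p v] = toAlt (b p.2) ![u, v]) := by
  have hcont : ∀ t : ℝ, Continuous fun x : V => w (x, t) := fun t =>
    hws.continuous.comp (by fun_prop)
  set Om : EE [⋀^Fin 2]→L[ℝ] ℝ := ∫ x in cube, w (x, 0) with hOm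
  have hOm_apply : ∀ v : Fin 2 → EE, Om v = ∫ x in cube, w (x, 0) v := by
    intro v
    have := ContinuousLinearMap.integral_comp_comm (ContinuousAlternatingMap.apply ℝ EE ℝ v)
      (integrableOn_cube (hcont 0))
    exact this.symm
  set B := toBil Om with hBdef
  have hBa : ∀ u v, B u v = ∫ x in cube, w (x, 0) ![u, v] := fun u v => by
    rw [hBdef, toBil_apply, hOm_apply]
  have hBt : ∀ (u v : V) (t : ℝ), B (u, 0) (v, 0) = ∫ x in cube, w (x, t) ![(u, 0), (v, 0)] := by
    intro u v t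
    rw [hBa, mean_const hws hcl hwt u v t]
  have hB : ∀ u v, B u v = -B v u := fun u v => by
    rw [hBdef, toBil_apply, toBil_apply, alt_swap]
  have hBA : ∀ u v, th u = 0 → th v = 0 → B (lin A u) (lin A v) = B u v := by
    rintro ⟨u, a⟩ ⟨v, b⟩ hu hv
    have ha : a = 0 := hu
    have hb : b = 0 := hv
    subst ha hb
    have e1 : lin A (u, 0) = ((mat A).mulVec u, 0) := rfl
    have e2 : lin A (v, 0) = ((mat A).mulVec v, 0) := rfl
    rw [e1, e2, hBt _ _ 1, hBt u v 0]
    have h3 := avg_affine A 0 (fun x : V => w (x, 1) ![((mat A).mulVec u, 0),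
      ((mat A).mulVec v, 0)]) (fun x n => by rw [hwt])
    rw [← h3]
    refine integral_congr_ae (Filter.Eventually.of_forall fun x => ?_)
    have h4 := hwmon (x, 0) (u, 0) (v, 0)
    simp only [add_zero]
    rw [zero_add] at h4
    exact h4
  set j : ℝ → EE →L[ℝ] EE := fun t => J (0, t) with hj
  have hjs : ContDiff ℝ ∞ j := hJs.comp (by fun_prop)
  have hJj : ∀ p : EE, J p = j p.2 := fun p => hJinv p.1 0 p.2
  have hj2 : ∀ t v, j t (j t v) = -v := fun t v => hJ2 _ v
  have hjmon : ∀ t v, j (t + 1) (lin A v) = lin A (j t v) := by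
    intro t v
    have := hJmon (0, t) v
    rw [hJj ((mat A).mulVec (0, t).1, (0, t).2 + 1)] at this
    exact this
  have hpos : ∀ t v, v ≠ 0 → th v = 0 → th (j t v) = 0 → 0 < B v (j t v) := by
    rintro t ⟨v, a⟩ hv h1 h2
    have ha : a = 0 := h1
    subst ha
    have h3 : j t (v, 0) = ((j t (v, 0)).1, 0) := Prod.ext rfl h2
    rw [h3, hBt _ _ t, ← h3]
    have hc : Continuous fun x : V => w (x, t) ![(v, 0), j t (v, 0)] :=
      (cd_apply hws _).continuous.comp (by fun_prop)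
    have hp : ∀ x : V, 0 < w (x, t) ![(v, 0), j t (v, 0)] := by
      intro x
      have := htame (x, t) (v, 0) hv
      rwa [hJj] at this
    obtain ⟨x0, -, hmin⟩ := (isCompact_Icc (a := (0 : V)) (b := 1)).exists_isMinOn
      (Set.nonempty_Icc.2 zero_le_one) hc.continuousOn
    have h4 : ∫ x in cube, (w (x0, t) ![(v, 0), j t (v, 0)]) ≤
        ∫ x in cube, w (x, t) ![(v, 0), j t (v, 0)] := by
      apply setIntegral_mono_on
      · exact integrable_const _
      · exact integrableOn_cube hc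
      · exact measurableSet_cube
      · intro x hx
        exact hmin (cube_subset hx)
    rw [setIntegral_const, Measure.real, volume_cube] at h4
    simp only [ENNReal.toReal_one, one_smul] at h4
    exact lt_of_lt_of_le (hp x0) h4
  obtain ⟨s, hs⟩ := exists_const hjs hj2 hpos
  refine ⟨fun t => b0 (j t) B s, b0_smooth hjs B s, W_closed hjs s hj2 hB, ?_, ?_, ?_⟩
  · intro t u v
    exact W_equiv (hjmon t) s (hj2 t) hB hBA u v
  · -- positivity
    have hunit : ∀ t ∈ Set.Icc (0 : ℝ) 1, ∀ v : EE, v ≠ 0 → 0 < W (j t) B s ![v, j t v] := by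
      intro t ht v hv
      rw [W_tame_apply s (hj2 t) hB]
      exact hs t ht v hv
    have hstep : ∀ t, (∀ v : EE, v ≠ 0 → 0 < W (j (t + 1)) B s ![v, j (t + 1) v]) ↔
        (∀ v : EE, v ≠ 0 → 0 < W (j t) B s ![v, j t v]) := by
      intro t
      have hrel : ∀ v, W (j (t + 1)) B s ![lin A v, j (t + 1) (lin A v)] =
          W (j t) B s ![v, j t v] := by
        intro v
        rw [hjmon]
        exact W_equiv (hjmon t) s (hj2 t) hB hBA v (j t v)
      constructor
      · intro h v hv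
        rw [← hrel]
        apply h
        have := lin_ne_zero A⁻¹ hv
        rwa [inv_inv] at this
      · intro h v hv
        have h1 := h (lin A⁻¹ v) (lin_ne_zero A hv)
        rw [← hrel, lin_inv] at h1
        exact h1
    have hall : ∀ (n : ℤ) (t : ℝ), t ∈ Set.Icc (0 : ℝ) 1 →
        ∀ v : EE, v ≠ 0 → 0 < W (j (t + n)) B s ![v, j (t + n) v] := by
      intro n t ht
      induction n using Int.induction_on with
      | zero => simpa using hunit t ht
      | succ n ih =>
        have h1 := (hstep (t + n)).2 (by simpa using ih)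
        have h2 : t + ((n : ℤ) + 1 : ℤ) = t + n + 1 := by push_cast; ring
        rw [h2]; exact h1
      | pred n ih =>
        have h2 : t + (-(n : ℤ) : ℤ) = (t + (-(n : ℤ) - 1 : ℤ)) + 1 := by push_cast; ring
        rw [h2] at ih
        exact (hstep _).1 ih
    intro p v hv
    rw [hJj p]
    have h1 := hall ⌊p.2⌋ (Int.fract p.2) ⟨Int.fract_nonneg _, (Int.fract_lt_one _).le⟩ v hv
    rwa [Int.fract_add_floor] at h1
  · intro p u v
    rw [hJj p]
    exact W_J_inv s (hj2 p.2) hB u v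

end Vale.Agent.P204aux
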