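import Mathlib
import Vale.Agent.P204.Bil

open MeasureTheory
open scoped ContDiff

namespace Vale.Agent.P204aux

/-- closedness through constant vector fields -/
theorem cyclic_of_extDeriv {w : EE → EE [⋀^Fin 2]→L[ℝ] ℝ} (hw : ContDiff ℝ ∞ w) (p u v x : EE) :
    extDeriv w p ![u, v, x] = fderiv ℝ (fun q => w q ![v, x]) p u +
      fderiv ℝ (fun q => w q ![x, u]) p v + fderiv ℝ (fun q => w q ![u, v]) p x := by
  rw [extDeriv_apply (hw.differentiable (by simp) p)]
  have h : (∑ i : Fin 3, (-1 : ℤ) ^ i.val •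
      fderiv ℝ (fun q => w q (i.removeNth ![u, v, x])) p (![u, v, x] i)) =
      fderiv ℝ (fun q => w q ![v, x]) p u +
      fderiv ℝ (fun q => w q ![x, u]) p v + fderiv ℝ (fun q => w q ![u, v]) p x := by
    rw [Fin.sum_univ_three]
    have e0 : Fin.removeNth (0 : Fin 3) ![u, v, x] = ![v, x] := by
      ext i : 1; fin_cases i <;> rfl
    have e1 : Fin.removeNth (1 : Fin 3) ![u, v, x] = ![u, x] := by
      ext i : 1; fin_cases i <;> rfl
    have e2 : Fin.removeNth (2 : Fin 3) ![u, v, x] = ![u, v] := by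
      ext i : 1; fin_cases i <;> rfl
    rw [e0, e1, e2]
    have e3 : (fun q => w q ![x, u]) = fun q => -(w q ![u, x]) := by
      funext q; exact alt_swap _ _ _
    rw [e3, fderiv_fun_neg]
    simp
  exact h

theorem plain (A : Matrix.SpecialLinearGroup (Fin 3) ℤ) {J : EE → EE → EE}
    (hJl : ∀ p, IsLinearMap ℝ (J p))
    (hJs : ContDiff ℝ ∞ (fun q : EE × EE => J q.1 q.2)) (hJ2 : ∀ p v, J p (J p v) = -v)
    (hJmon : ∀ p : EE, ∀ v, J ((mat A).mulVec p.1, p.2 + 1) (lin A v) = lin A (J p v))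
    (hJinv : ∀ (x y : V) (t : ℝ), J (x, t) = J (y, t))
    {w : EE → EE → EE → ℝ} (hwl : ∀ p u, IsLinearMap ℝ (w p u))
    (hwa : ∀ p u v, w p u v = -w p v u)
    (hws : ContDiff ℝ ∞ (fun q : EE × EE × EE => w q.1 q.2.1 q.2.2))
    (hcl : ∀ p u v x, fderiv ℝ (fun q => w q v x) p u + fderiv ℝ (fun q => w q x u) p v +
      fderiv ℝ (fun q => w q u v) p x = 0)
    (hwt : ∀ (x : V) (t : ℝ) (n : Fin 3 → ℤ), w (x + fun i => (n i : ℝ), t) = w (x, t))
    (hwmon : ∀ p : EE, ∀ u v, w ((mat A).mulVec p.1, p.2 + 1) (lin A u) (lin A v) = w p u v)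
    (htame : ∀ p v, v ≠ 0 → 0 < w p v (J p v)) :
    ∃ w' : EE → EE → EE → ℝ, (∀ p u, IsLinearMap ℝ (w' p u)) ∧ (∀ p u v, w' p u v = -w' p v u) ∧
      ContDiff ℝ ∞ (fun q : EE × EE × EE => w' q.1 q.2.1 q.2.2) ∧
      (∀ p u v x, fderiv ℝ (fun q => w' q v x) p u + fderiv ℝ (fun q => w' q x u) p v +
        fderiv ℝ (fun q => w' q u v) p x = 0) ∧
      (∀ (x y : V) (t : ℝ), w' (x, t) = w' (y, t)) ∧
      (∀ p : EE, ∀ u v, w' ((mat A).mulVec p.1, p.2 + 1) (lin A u) (lin A v) = w' p u v) ∧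
      (∀ p v, v ≠ 0 → 0 < w' p v (J p v)) ∧
      (∀ p u v, w' p (J p u) (J p v) = w' p u v) := by
  -- package `J`
  let Jc : EE → EE →L[ℝ] EE := fun p => LinearMap.toContinuousLinearMap (hJl p).mk'
  have hJc : ∀ p v, Jc p v = J p v := fun p v => rfl
  have hJcs : ContDiff ℝ ∞ Jc := by
    rw [contDiff_clm_apply_iff]
    intro v
    exact hJs.comp (by fun_prop : ContDiff ℝ ∞ fun p : EE => (p, v))
  -- package `w`
  have hwl2 : ∀ p v, IsLinearMap ℝ (fun u => w p u v) := by
    intro p v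
    constructor
    · intro a b
      rw [hwa, (hwl p v).map_add, hwa p a v, hwa p b v]; ring
    · intro c a
      rw [hwa, (hwl p v).map_smul, hwa p a v]; simp
  let bl : EE → EE →L[ℝ] EE →L[ℝ] ℝ := fun p => LinearMap.toContinuousLinearMap
    { toFun := fun u => LinearMap.toContinuousLinearMap (hwl p u).mk'
      map_add' := fun a b => ContinuousLinearMap.ext fun v => (hwl2 p v).map_add a b
      map_smul' := fun c a => ContinuousLinearMap.ext fun v => (hwl2 p v).map_smul c a }
  have hbl : ∀ p u v, bl p u v = w p u v := fun p u v => rfl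
  have hbls : ContDiff ℝ ∞ bl := by
    rw [contDiff_clm_apply_iff]
    intro u
    rw [contDiff_clm_apply_iff]
    intro v
    exact hws.comp (by fun_prop : ContDiff ℝ ∞ fun p : EE => (p, u, v))
  let wc : EE → EE [⋀^Fin 2]→L[ℝ] ℝ := fun p => toAlt (bl p)
  have hwc : ∀ p u v, wc p ![u, v] = w p u v := by
    intro p u v
    have := toAlt_apply (bl p) u v
    rw [hbl, hbl, hwa p v u] at this
    rw [this]; ring
  have hwcs : ContDiff ℝ ∞ wc := by
    change ContDiff ℝ ∞ (fun p => toAlt (bl p))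
    exact toAlt.contDiff.comp hbls
  have hwcc : extDeriv wc = 0 := by
    funext p
    ext y
    have h1 : y = ![y 0, y 1, y 2] := by
      ext i : 1; fin_cases i <;> rfl
    rw [h1, cyclic_of_extDeriv hwcs]
    simp only [hwc]
    rw [hcl]
    rfl
  have hblext : ∀ p q, (∀ u v, w p u v = w q u v) → bl p = bl q := by
    intro p q h
    exact ContinuousLinearMap.ext fun u => ContinuousLinearMap.ext fun v => h u v
  obtain ⟨b, h1, h2, h3, h4, h5⟩ := core A hJcs (fun p v => by rw [hJc, hJc, hJ2])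
    (fun p v => by rw [hJc, hJc, hJmon]) (fun x y t =>
      ContinuousLinearMap.ext fun v => by rw [hJc, hJc, hJinv x y t]) hwcs hwcc
    (fun x t n => by
      change toAlt (bl _) = toAlt (bl _)
      rw [hblext (x + fun i => (n i : ℝ), t) (x, t) (fun u v => by rw [hwt])])
    (fun p u v => by rw [hwc, hwc, hwmon]) (fun p v hv => by rw [hwc]; exact htame p v hv)
  have hval : ∀ p : EE, ∀ u v, toAlt (b p.2) ![u, v] = (b p.2 u v - b p.2 v u) / 2 :=
    fun p u v => toAlt_apply _ _ _
  refine ⟨fun p u v => (b p.2 u v - b p.2 v u) / 2, ?_, ?_, ?_, ?_, ?_, ?_, ?_, ?_⟩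
  · intro p u
    constructor
    · intro x y
      simp only [map_add, add_apply]
      ring
    · intro c x
      simp only [map_smul, smul_apply, smul_eq_mul]
      ring
  · intro p u v
    ring
  · have e1 : ContDiff ℝ ∞ (fun q : EE × EE × EE => b q.1.2) := h1.comp (by fun_prop)
    have e2 : ContDiff ℝ ∞ (fun q : EE × EE × EE => b q.1.2 q.2.1 q.2.2) :=
      (e1.clm_apply (by fun_prop)).clm_apply (by fun_prop)
    have e3 : ContDiff ℝ ∞ (fun q : EE × EE × EE => b q.1.2 q.2.2 q.2.1) :=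
      (e1.clm_apply (by fun_prop)).clm_apply (by fun_prop)
    exact (e2.sub e3).div_const 2
  · intro p u v x
    have hs : ContDiff ℝ ∞ (fun q : EE => toAlt (b q.2)) :=
      toAlt.contDiff.comp (h1.comp contDiff_snd)
    have := cyclic_of_extDeriv hs p u v x
    rw [h2] at this
    simp only [hval] at this
    exact this.symm
  · intro x y t; rfl
  · intro p u v
    have := h3 p.2 u v
    rw [toAlt_apply, toAlt_apply] at this
    exact this
  · intro p v hv
    have := h4 p v hv
    rw [hval] at this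
    exact this
  · intro p u v
    have := h5 p u v
    rw [hval, hval] at this
    exact this

end Vale.Agent.P204aux
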